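import Vale.Agent.P330.Str

open Vale.Agent.P330 in
/-- The PCP-for-PPAD conjecture, in the quasi-linear form; the decoder is right for assignments of
every code length. -/
theorem Vale.Agent.Results.P330.AQuasiLinearAll.result :
    ∃ (ε δ : ℝ) (p : Polynomial ℕ) (c : ℕ) (R : EOL → GCirc) (D : EOL × List ℚ≥0 → List Bool),
      0 < ε ∧ ε < 1 ∧ 0 < δ ∧ δ < 1 ∧ Reduces ε δ p R D ∧
        (∀ I : EOL, (R I).code.length ≤ I.code.length * Nat.log 2 I.code.length ^ c) ∧
        ∀ (q : Polynomial ℕ) (I : EOL) (x : List ℚ≥0),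
          (R I).Acceptable ε δ q x → I.Solution (D (I, x)) :=
  goalAll
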