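import Vale.Agent.P330.Final

open Vale.Agent.P330 in
/-- The PCP-for-PPAD conjecture, in the quasi-linear form. -/
theorem Vale.Agent.Results.P330.QuasiLinear.result :
    ∃ (ε δ : ℝ) (p : Polynomial ℕ) (c : ℕ) (R : EOL → GCirc) (D : EOL × List ℚ≥0 → List Bool),
      0 < ε ∧ ε < 1 ∧ 0 < δ ∧ δ < 1 ∧ Reduces ε δ p R D ∧
        ∀ I : EOL, (R I).code.length ≤ I.code.length * Nat.log 2 I.code.length ^ c :=
  goal
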